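import Vale.Agent.P040.Lower

open Vale.Agent.P040 Set

/-- Zarankiewicz's conjecture: `cr(K_{m,n}) = d_m d_n`; the minimum is attained, and the lower
bound holds even for drawings whose meeting points need not be proper crossings. -/
theorem Vale.Agent.Results.P040.Zarankiewicz.result (m n : ℕ) :
    crossingNumber (completeBipartiteGraph (Fin m) (Fin n)) = d m * d n ∧
    IsLeast (range fun D : Drawing (completeBipartiteGraph (Fin m) (Fin n)) => D.c) (d m * d n) ∧
    ∀ (pos : Fin m ⊕ Fin n → ℂ)
      (arc : (completeBipartiteGraph (Fin m) (Fin n)).edgeSet → unitInterval → ℂ),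
      Function.Injective pos → (∀ e, Continuous (arc e)) → (∀ e, Function.Injective (arc e)) →
      (∀ e, s(arc e 0, arc e 1) = (e : Sym2 (Fin m ⊕ Fin n)).map pos) →
      (∀ e v, pos v ∉ arcInterior (arc e)) →
      {p | ∃ e f, e ≠ f ∧ p ∈ arcInterior (arc e) ∧ p ∈ arcInterior (arc f)}.Finite →
      (∀ e f g p, e ≠ f → p ∈ arcInterior (arc e) → p ∈ arcInterior (arc f) →
        p ∈ arcInterior (arc g) → g = e ∨ g = f) →
      d m * d n ≤
        {p | ∃ e f, e ≠ f ∧ p ∈ arcInterior (arc e) ∧ p ∈ arcInterior (arc f)}.ncard := by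
  have h := crossingNumber_eq_of_lower m n fun D =>
    lower_bound m n D.pos D.arc D.pos_inj D.arc_cont D.arc_inj D.arc_ends D.avoid D.finite_meet D.two
  exact ⟨h.2, h.1, lower_bound m n⟩
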